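-- RD-BASE 1b5558c78245754f9b8d68de1e10aab6c7dfbd21
import Vale.Agent.P028.MathlibUsed
import Vale.Agent.P028.RD.H383.TAd
import Vale.Agent.P028.RD.H758.Rigid
import Vale.Agent.P028.RD.R764.LkDefs
attribute [-instance] ProperSMul.toContinuousSMul IsTopologicalTorsor.toContinuousSMul IdemSemiring.toCanonicallyOrderedAdd IdemSemiring.toMulLeftMono IdemSemiring.toMulRightMono AddQuantale.instAddLeftMono AddQuantale.instAddRightMono Quantale.instMulLeftMono Quantale.instMulRightMono FiniteDimensional.rclike_to_real IsScalarTower.complexToReal FiniteDimensional.complexToReal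

/-!
# Rest-rigid aligned partners are unique for a fixed omitted part
-/

namespace Vale.P028.SK

open Finset CF

variable {g : Cfg}

/-- an aligned pair whose cofactors are written as deficit times omitted part times rest part -/
structure RPr (g : Cfg) (q r : ℕ) (n : ℤ) (F G : ℚ) (μ m a₁ b₁ a₂ b₂ : ℕ) : Prop where
  q0 : 0 < q
  r0 : 0 < r
  sh : n ∈ Sh g q r
  al : (n : ℚ) + F * ((cofac r q : ℤ) : ℚ) - G * ((cofac q r : ℤ) : ℚ) = 0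
  e1 : cofac q r = m * (a₁ * a₂)
  e2 : cofac r q = μ * (b₁ * b₂)
  c1 : Nat.Coprime a₁ (((m : ℚ) * G).den)
  c2 : Nat.Coprime b₁ (((μ : ℚ) * F).den)

/-- the complexity parameter of a pair of fractions -/
noncomputable def KRa (g : Cfg) (q μ m : ℕ) (F G : ℚ) : ℝ :=
  max (max ((((μ : ℕ) : ℚ) * F).den : ℝ) ((((m : ℕ) : ℚ) * G).den : ℝ))
    (2 * (|g.γ - (F : ℝ)| / ψ g q) + 4)

theorem KRa_eq (i q m : ℕ) (F G : ℚ) : KRa g q (M g i q) m F G = KR g i q m F G := rfl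

theorem two_le_KRa (q μ m : ℕ) (F G : ℚ) : 2 ≤ KRa g q μ m F G := by
  unfold KRa
  refine le_trans ?_ (le_max_right _ _)
  have : 0 ≤ |g.γ - (F : ℝ)| / ψ g q := div_nonneg (abs_nonneg _) (ψ_pos g q).le
  linarith

namespace RPr

variable {q r r' : ℕ} {n n' : ℤ} {F G G' : ℚ} {μ m a₁ b₁ a₂ b₂ a₂' b₂' : ℕ}

theorem posA (h : RPr g q r n F G μ m a₁ b₁ a₂ b₂) : 0 < m ∧ 0 < a₁ ∧ 0 < a₂ := by
  have h1 := cofac_pos r h.q0
  rw [h.e1] at h1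
  refine ⟨Nat.pos_of_ne_zero ?_, Nat.pos_of_ne_zero ?_, Nat.pos_of_ne_zero ?_⟩ <;>
  · rintro rfl
    simp at h1

theorem posB (h : RPr g q r n F G μ m a₁ b₁ a₂ b₂) : 0 < μ ∧ 0 < b₁ ∧ 0 < b₂ := by
  have h1 := cofac_pos q h.r0
  rw [h.e2] at h1
  refine ⟨Nat.pos_of_ne_zero ?_, Nat.pos_of_ne_zero ?_, Nat.pos_of_ne_zero ?_⟩ <;>
  · rintro rfl
    simp at h1

theorem cop (h : RPr g q r n F G μ m a₁ b₁ a₂ b₂) : Nat.Coprime a₂ b₂ := by
  have h1 := cofac_coprime (q := q) (r := r) h.q0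
  rw [h.e1, h.e2] at h1
  exact (h1.coprime_dvd_left ((dvd_mul_left _ _).trans (dvd_mul_left _ _))).coprime_dvd_right
    ((dvd_mul_left _ _).trans (dvd_mul_left _ _))

/-- the relation with integer coefficients -/
theorem rel (h : RPr g q r n F G μ m a₁ b₁ a₂ b₂) :
    (n : ℚ) = (m : ℚ) * G * ((a₁ : ℚ) * a₂) - (μ : ℚ) * F * ((b₁ : ℚ) * b₂) := by
  have h3 := h.al
  rw [h.e1, h.e2] at h3
  push_cast at h3
  linarith

/-- the denominator of the fraction of the partner -/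
theorem denG_dvd (h : RPr g q r n F G μ m a₁ b₁ a₂ b₂) :
    ((m : ℚ) * G).den ∣ a₂ * ((μ : ℚ) * F).den := by
  have h1 := h.rel
  set x := (m : ℚ) * G with hx
  set y := (μ : ℚ) * F with hy
  have hyd : y * (y.den : ℚ) = y.num := Rat.mul_den_eq_num y
  have h2 : ((n * (y.den : ℤ) + y.num * ((b₁ : ℤ) * b₂) : ℤ) : ℚ) =
      x * (((a₁ : ℤ) * (a₂ * y.den) : ℤ) : ℚ) := by
    push_cast
    rw [← hyd, h1]
    ring
  have h3 := den_dvd_of_mul_int h2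
  have h4 : x.den ∣ a₁ * (a₂ * y.den) := by exact_mod_cast h3
  exact (h.c1.symm).dvd_of_dvd_mul_left h4

/-- the denominator of the fraction of `q` -/
theorem denF_dvd (h : RPr g q r n F G μ m a₁ b₁ a₂ b₂) :
    ((μ : ℚ) * F).den ∣ b₂ * ((m : ℚ) * G).den := by
  have h1 := h.rel
  set x := (m : ℚ) * G with hx
  set y := (μ : ℚ) * F with hy
  have hxd : x * (x.den : ℚ) = x.num := Rat.mul_den_eq_num x
  have h2 : ((x.num * ((a₁ : ℤ) * a₂) - n * (x.den : ℤ) : ℤ) : ℚ) =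
      y * (((b₁ : ℤ) * (b₂ * x.den) : ℤ) : ℚ) := by
    push_cast
    rw [← hxd, h1]
    ring
  have h3 := den_dvd_of_mul_int h2
  have h4 : y.den ∣ b₁ * (b₂ * x.den) := by exact_mod_cast h3
  exact (h.c2.symm).dvd_of_dvd_mul_left h4

/-- the radii -/
theorem radii (hX : 1 ≤ g.X) (h : RPr g q r n F G μ m a₁ b₁ a₂ b₂) :
    (m : ℝ) * ψ g r * ((a₁ : ℝ) * a₂) = (μ : ℝ) * ψ g q * ((b₁ : ℝ) * b₂) := by
  obtain ⟨h1, h2⟩ := Dl_eq (g := g) hX h.q0 h.r0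
  rw [h.e1] at h2
  rw [h.e2] at h1
  push_cast at h1 h2
  linarith

/-- the window -/
theorem win (hX : 1 ≤ g.X) (h : RPr g q r n F G μ m a₁ b₁ a₂ b₂) :
    |((G : ℝ) - g.γ) * ((m : ℝ) * (a₁ * a₂)) - ((F : ℝ) - g.γ) * ((μ : ℝ) * (b₁ * b₂))| <
      2 * ((μ : ℝ) * (b₁ * b₂) * ψ g q) := by
  have h1 := window_al h.sh h.al
  obtain ⟨h2, -⟩ := Dl_eq (g := g) hX h.q0 h.r0
  rw [← h2, h.e1, h.e2] at h1
  push_cast at h1
  exact h1

/-- the offset of the partner -/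
theorem offG_le (hX : 1 ≤ g.X) (h : RPr g q r n F G μ m a₁ b₁ a₂ b₂) :
    |g.γ - (G : ℝ)| / ψ g r ≤ |g.γ - (F : ℝ)| / ψ g q + 2 := by
  obtain ⟨pm, pa, pa2⟩ := h.posA
  obtain ⟨pμ, pb, pb2⟩ := h.posB
  have hψq := ψ_pos g q
  have hψr := ψ_pos g r
  have hw := h.win hX
  have hr := h.radii hX
  set A : ℝ := (m : ℝ) * (a₁ * a₂) with hA
  set B : ℝ := (μ : ℝ) * (b₁ * b₂) with hB
  have hA0 : 0 < A := by positivity
  have hB0 : 0 < B := by positivity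
  have hrr : A * ψ g r = B * ψ g q := by rw [hA, hB]; linarith
  have h1 : |g.γ - (G : ℝ)| * A ≤ 2 * (B * ψ g q) + |g.γ - (F : ℝ)| * B := by
    have h2 : |((G : ℝ) - g.γ) * A| ≤ |((G : ℝ) - g.γ) * A - ((F : ℝ) - g.γ) * B| +
        |((F : ℝ) - g.γ) * B| := by
      have h3 := abs_add_le (((G : ℝ) - g.γ) * A - ((F : ℝ) - g.γ) * B) (((F : ℝ) - g.γ) * B)
      rwa [sub_add_cancel] at h3
    rw [abs_mul ((G : ℝ) - g.γ) A, abs_mul ((F : ℝ) - g.γ) B, abs_of_pos hA0, abs_of_pos hB0,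
      abs_sub_comm (G : ℝ), abs_sub_comm (F : ℝ)] at h2
    linarith
  rw [div_le_iff₀ hψr]
  refine le_of_mul_le_mul_right ?_ hA0
  calc |g.γ - (G : ℝ)| * A ≤ 2 * (B * ψ g q) + |g.γ - (F : ℝ)| * B := h1
    _ = (|g.γ - (F : ℝ)| / ψ g q + 2) * (B * ψ g q) := by field_simp; ring
    _ = (|g.γ - (F : ℝ)| / ψ g q + 2) * ψ g r * A := by rw [← hrr]; ring

/-- the offset of `q` -/
theorem offF_le (hX : 1 ≤ g.X) (h : RPr g q r n F G μ m a₁ b₁ a₂ b₂) :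
    |g.γ - (F : ℝ)| / ψ g q ≤ |g.γ - (G : ℝ)| / ψ g r + 2 := by
  obtain ⟨pm, pa, pa2⟩ := h.posA
  obtain ⟨pμ, pb, pb2⟩ := h.posB
  have hψq := ψ_pos g q
  have hψr := ψ_pos g r
  have hw := h.win hX
  have hr := h.radii hX
  set A : ℝ := (m : ℝ) * (a₁ * a₂) with hA
  set B : ℝ := (μ : ℝ) * (b₁ * b₂) with hB
  have hA0 : 0 < A := by positivity
  have hB0 : 0 < B := by positivity
  have hrr : A * ψ g r = B * ψ g q := by rw [hA, hB]; linarith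
  have h1 : |g.γ - (F : ℝ)| * B ≤ 2 * (B * ψ g q) + |g.γ - (G : ℝ)| * A := by
    have h2 : |((F : ℝ) - g.γ) * B| ≤ |((G : ℝ) - g.γ) * A - ((F : ℝ) - g.γ) * B| +
        |((G : ℝ) - g.γ) * A| := by
      have h3 := abs_sub (((G : ℝ) - g.γ) * A - ((F : ℝ) - g.γ) * B) (((G : ℝ) - g.γ) * A)
      have e : ((G : ℝ) - g.γ) * A - ((F : ℝ) - g.γ) * B - ((G : ℝ) - g.γ) * A =
        -(((F : ℝ) - g.γ) * B) := by ring
      rwa [e, abs_neg] at h3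
    rw [abs_mul ((F : ℝ) - g.γ) B, abs_mul ((G : ℝ) - g.γ) A, abs_of_pos hA0, abs_of_pos hB0,
      abs_sub_comm (G : ℝ), abs_sub_comm (F : ℝ)] at h2
    linarith
  rw [div_le_iff₀ hψq]
  refine le_of_mul_le_mul_right ?_ hB0
  calc |g.γ - (F : ℝ)| * B ≤ 2 * (B * ψ g q) + |g.γ - (G : ℝ)| * A := h1
    _ = 2 * (A * ψ g r) + |g.γ - (G : ℝ)| * A := by rw [hrr]
    _ = (|g.γ - (G : ℝ)| / ψ g r + 2) * (A * ψ g r) := by field_simp; ring
    _ = (|g.γ - (G : ℝ)| / ψ g r + 2) * ψ g q * B := by rw [hrr]; ring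

/-- equality of the rest parts gives equality of the partners -/
theorem eq_of_cross (h : RPr g q r n F G μ m a₁ b₁ a₂ b₂)
    (h' : RPr g q r' n' F G' μ m a₁ b₁ a₂' b₂') (hx : a₂ * b₂' = a₂' * b₂) : r = r' := by
  have hcop := h.cop
  have hcop' := h'.cop
  have e1 : a₂ = a₂' := by
    apply Nat.dvd_antisymm
    · have h6 : a₂ ∣ a₂' * b₂ := by rw [← hx]; exact dvd_mul_right _ _
      exact hcop.dvd_of_dvd_mul_right h6
    · have h6 : a₂' ∣ a₂ * b₂' := by rw [hx]; exact dvd_mul_right _ _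
      exact hcop'.dvd_of_dvd_mul_right h6
  have e2 : b₂ = b₂' := by
    rw [← e1] at hx
    exact (Nat.eq_of_mul_eq_mul_left h.posA.2.2 hx).symm
  apply cofac_inj h.q0 h.r0 h'.r0
  · rw [h.e1, h'.e1, e1]
  · rw [h.e2, h'.e2, e2]

/-- **Rest-rigid aligned partners with the same fraction and the same omitted part are unique.** -/
theorem core (hX : 1 ≤ g.X) (h : RPr g q r n F G μ m a₁ b₁ a₂ b₂)
    (h' : RPr g q r' n' F G μ m a₁ b₁ a₂' b₂')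
    (h1 : (a₂ : ℝ) ≤ KRa g q μ m F G ^ (1 / 8 : ℝ)) (h2 : (b₂ : ℝ) ≤ KRa g q μ m F G ^ (1 / 8 : ℝ))
    (h1' : (a₂' : ℝ) ≤ KRa g q μ m F G ^ (1 / 8 : ℝ))
    (h2' : (b₂' : ℝ) ≤ KRa g q μ m F G ^ (1 / 8 : ℝ)) : r = r' := by
  obtain ⟨pm, pa, pa2⟩ := h.posA
  obtain ⟨pμ, pb, pb2⟩ := h.posB
  obtain ⟨-, -, pa2'⟩ := h'.posA
  obtain ⟨-, -, pb2'⟩ := h'.posB
  set K := KRa g q μ m F G with hKdef
  have hK2 : 2 ≤ K := two_le_KRa q μ m F G
  have hK0 : 0 < K := by linarith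
  by_cases hK : K < 64
  · -- all the rest parts are one
    have h16 : K ^ (1 / 8 : ℝ) < 2 := by
      have h3 : K ^ (1 / 8 : ℝ) < 64 ^ (1 / 8 : ℝ) :=
        Real.rpow_lt_rpow hK0.le hK (by norm_num)
      have h4 : (64 : ℝ) ^ (1 / 8 : ℝ) ≤ 2 := by
        rw [show (64 : ℝ) = 2 ^ (6 : ℝ) by norm_num, ← Real.rpow_mul (by norm_num)]
        calc (2 : ℝ) ^ ((6 : ℝ) * (1 / 8)) ≤ 2 ^ (1 : ℝ) :=
              Real.rpow_le_rpow_of_exponent_le (by norm_num) (by norm_num)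
          _ = 2 := Real.rpow_one _
      linarith
    have hone : ∀ x : ℕ, 0 < x → (x : ℝ) ≤ K ^ (1 / 8 : ℝ) → x = 1 := by
      intro x hx h
      have h3 : (x : ℝ) < 2 := lt_of_le_of_lt h h16
      have h4 : x < 2 := by exact_mod_cast h3
      omega
    apply h.eq_of_cross h'
    rw [hone _ pa2 h1, hone _ pb2 h2, hone _ pa2' h1', hone _ pb2' h2']
  push Not at hK
  have hK4 : K ^ (1 / 8 : ℝ) * K ^ (1 / 8 : ℝ) = K ^ (1 / 4 : ℝ) := by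
    rw [← Real.rpow_add hK0]
    norm_num
  have hK4' : 2 * K ^ (1 / 4 : ℝ) * 8 ≤ K := by
    have h3 : (16 : ℝ) ≤ K ^ (3 / 4 : ℝ) := by
      have h4 : (16 : ℝ) ≤ (64 : ℝ) ^ (3 / 4 : ℝ) := by
        rw [show (64 : ℝ) = 2 ^ (6 : ℝ) by norm_num, ← Real.rpow_mul (by norm_num)]
        calc (16 : ℝ) = 2 ^ (4 : ℝ) := by norm_num
          _ ≤ 2 ^ ((6 : ℝ) * (3 / 4)) :=
            Real.rpow_le_rpow_of_exponent_le (by norm_num) (by norm_num)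
      exact h4.trans (Real.rpow_le_rpow (by norm_num) hK (by norm_num))
    have h5 : K = K ^ (1 / 4 : ℝ) * K ^ (3 / 4 : ℝ) := by
      rw [← Real.rpow_add hK0]
      norm_num
    have h6 : 0 < K ^ (1 / 4 : ℝ) := Real.rpow_pos_of_pos hK0 _
    nlinarith
  have hK8 : (0 : ℝ) < K ^ (1 / 8 : ℝ) := Real.rpow_pos_of_pos hK0 _
  have ra2 : (1 : ℝ) ≤ a₂ := by exact_mod_cast pa2
  have rb2 : (1 : ℝ) ≤ b₂ := by exact_mod_cast pb2
  have ra2' : (1 : ℝ) ≤ a₂' := by exact_mod_cast pa2'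
  have rb2' : (1 : ℝ) ≤ b₂' := by exact_mod_cast pb2'
  have rμ : (0 : ℝ) < μ := by exact_mod_cast pμ
  have rb : (0 : ℝ) < b₁ := by exact_mod_cast pb
  have hab : (a₂ : ℝ) * b₂' ≤ K ^ (1 / 4 : ℝ) := by
    rw [← hK4]
    exact mul_le_mul h1 h2' (by linarith) hK8.le
  have hba : (a₂' : ℝ) * b₂ ≤ K ^ (1 / 4 : ℝ) := by
    rw [← hK4]
    exact mul_le_mul h1' h2 (by linarith) hK8.le
  by_contra hne
  have hdet : (a₂ : ℤ) * b₂' - (a₂' : ℤ) * b₂ ≠ 0 := by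
    intro h0
    apply hne
    have h4 : (a₂ : ℤ) * b₂' = (a₂' : ℤ) * b₂ := by linarith
    exact h.eq_of_cross h' (by exact_mod_cast h4)
  have hdet1 : (1 : ℝ) ≤ |(a₂ : ℝ) * b₂' - (a₂' : ℝ) * b₂| := by
    have := Int.one_le_abs hdet
    exact_mod_cast this
  have hdetle : |(a₂ : ℝ) * b₂' - (a₂' : ℝ) * b₂| ≤ K ^ (1 / 4 : ℝ) := by
    rw [abs_le]
    constructor
    · have : 0 ≤ (a₂ : ℝ) * b₂' := by positivity
      linarith
    · have : 0 ≤ (a₂' : ℝ) * b₂ := by positivity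
      linarith
  have hr1 := h.rel
  have hr2 := h'.rel
  -- the denominators
  have hdG : ((((m : ℕ) : ℚ) * G).den : ℝ) ≤ K ^ (1 / 4 : ℝ) := by
    have h3 : ((n * b₂' - n' * b₂ : ℤ) : ℚ) = ((m : ℚ) * G) *
        (((a₁ : ℤ) * ((a₂ : ℤ) * b₂' - (a₂' : ℤ) * b₂) : ℤ) : ℚ) := by
      push_cast
      rw [hr1, hr2]
      ring
    have h4 := den_dvd_of_mul_int h3
    have h5 : IsCoprime (((((m : ℕ) : ℚ) * G).den : ℕ) : ℤ) (a₁ : ℤ) :=
      Nat.isCoprime_iff_coprime.2 h.c1.symm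
    have h6 := h5.dvd_of_dvd_mul_left h4
    have h7 := Int.le_of_dvd (abs_pos.2 hdet) ((dvd_abs _ _).2 h6)
    refine le_trans ?_ hdetle
    exact_mod_cast h7
  have hdF : ((((μ : ℕ) : ℚ) * F).den : ℝ) ≤ K ^ (1 / 4 : ℝ) := by
    have h3 : ((n * a₂' - n' * a₂ : ℤ) : ℚ) = ((μ : ℚ) * F) *
        (((b₁ : ℤ) * ((a₂ : ℤ) * b₂' - (a₂' : ℤ) * b₂) : ℤ) : ℚ) := by
      push_cast
      rw [hr1, hr2]
      ring
    have h4 := den_dvd_of_mul_int h3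
    have h5 : IsCoprime (((((μ : ℕ) : ℚ) * F).den : ℕ) : ℤ) (b₁ : ℤ) :=
      Nat.isCoprime_iff_coprime.2 h.c2.symm
    have h6 := h5.dvd_of_dvd_mul_left h4
    have h7 := Int.le_of_dvd (abs_pos.2 hdet) ((dvd_abs _ _).2 h6)
    refine le_trans ?_ hdetle
    exact_mod_cast h7
  have hpos4 : 0 < K ^ (1 / 4 : ℝ) := Real.rpow_pos_of_pos hK0 _
  -- the offset
  have hψ := ψ_pos g q
  have hoff : |g.γ - (F : ℝ)| / ψ g q ≤ 4 * K ^ (1 / 4 : ℝ) := by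
    have hw := h.win hX
    have hw' := h'.win hX
    set w := ((G : ℝ) - g.γ) * ((m : ℝ) * (a₁ * a₂)) - ((F : ℝ) - g.γ) * ((μ : ℝ) * (b₁ * b₂))
      with hwdef
    set w' := ((G : ℝ) - g.γ) * ((m : ℝ) * (a₁ * a₂')) - ((F : ℝ) - g.γ) * ((μ : ℝ) * (b₁ * b₂'))
      with hwdef'
    have h3 : w * a₂' - w' * a₂ =
        ((F : ℝ) - g.γ) * (μ * b₁) * ((a₂ : ℝ) * b₂' - (a₂' : ℝ) * b₂) := by
      rw [hwdef, hwdef']
      ring
    have h4 : |w * a₂' - w' * a₂| ≤ |w| * a₂' + |w'| * a₂ := by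
      calc |w * a₂' - w' * a₂| ≤ |w * a₂'| + |w' * a₂| := abs_sub _ _
        _ = _ := by rw [abs_mul, abs_mul, abs_of_pos (by linarith : (0 : ℝ) < a₂'),
              abs_of_pos (by linarith : (0 : ℝ) < a₂)]
    have h5 : |w| * a₂' + |w'| * a₂ ≤ 4 * K ^ (1 / 4 : ℝ) * ((μ : ℝ) * b₁ * ψ g q) := by
      have h6 : |w| * a₂' ≤ 2 * ((μ : ℝ) * (b₁ * b₂) * ψ g q) * a₂' :=
        mul_le_mul_of_nonneg_right hw.le (by linarith)
      have h7 : |w'| * a₂ ≤ 2 * ((μ : ℝ) * (b₁ * b₂') * ψ g q) * a₂ :=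
        mul_le_mul_of_nonneg_right hw'.le (by linarith)
      have h8 : 0 ≤ 2 * ((μ : ℝ) * b₁ * ψ g q) := by positivity
      have h9 := mul_le_mul_of_nonneg_left hab h8
      have h10 := mul_le_mul_of_nonneg_left hba h8
      have e3 : 2 * ((μ : ℝ) * (b₁ * b₂) * ψ g q) * a₂' =
        2 * ((μ : ℝ) * b₁ * ψ g q) * ((a₂' : ℝ) * b₂) := by ring
      have e4 : 2 * ((μ : ℝ) * (b₁ * b₂') * ψ g q) * a₂ =
        2 * ((μ : ℝ) * b₁ * ψ g q) * ((a₂ : ℝ) * b₂') := by ring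
      rw [e3] at h6
      rw [e4] at h7
      linarith only [h6, h7, h9, h10]
    have hμb : (0 : ℝ) < μ * b₁ := by positivity
    rw [h3, abs_mul, abs_mul, abs_of_pos hμb] at h4
    rw [abs_sub_comm, div_le_iff₀ hψ]
    have h9 : |(F : ℝ) - g.γ| * (μ * b₁) ≤
        |(F : ℝ) - g.γ| * (μ * b₁) * |(a₂ : ℝ) * b₂' - (a₂' : ℝ) * b₂| :=
      le_mul_of_one_le_right (by positivity) hdet1
    have h10 : |(F : ℝ) - g.γ| * (μ * b₁) ≤ 4 * K ^ (1 / 4 : ℝ) * ψ g q * (μ * b₁) := by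
      calc |(F : ℝ) - g.γ| * (μ * b₁) ≤ |w| * a₂' + |w'| * a₂ := by linarith
        _ ≤ _ := h5
        _ = _ := by ring
    exact le_of_mul_le_mul_right h10 hμb
  have hK1 : 1 ≤ K ^ (1 / 4 : ℝ) := Real.one_le_rpow (by linarith) (by norm_num)
  have hKle : K ≤ max (max (K ^ (1 / 4 : ℝ)) (K ^ (1 / 4 : ℝ))) (8 * K ^ (1 / 4 : ℝ) + 4) := by
    conv_lhs => rw [hKdef]
    unfold KRa
    exact max_le_max (max_le_max hdF hdG) (by linarith)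
  rw [max_self] at hKle
  rcases le_max_iff.1 hKle with h3 | h3
  · linarith
  · linarith

/-- elementary -/
theorem le_sq_of_le {K c : ℝ} (hK : 1 ≤ K) (h : K ≤ K ^ (1 / 8 : ℝ) * c) : K ≤ c ^ 2 := by
  have hK0 : 0 < K := by linarith
  have h1 : K ^ (1 / 8 : ℝ) * K ^ (7 / 8 : ℝ) = K := by
    rw [← Real.rpow_add hK0]
    norm_num
  have h2 : 0 < K ^ (1 / 8 : ℝ) := Real.rpow_pos_of_pos hK0 _
  have h3 : K ^ (7 / 8 : ℝ) ≤ c := by
    refine le_of_mul_le_mul_left ?_ h2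
    rw [h1]
    exact h
  have h4 : K ^ (1 / 2 : ℝ) ≤ K ^ (7 / 8 : ℝ) := Real.rpow_le_rpow_of_exponent_le hK (by norm_num)
  have h5 : 0 ≤ K ^ (1 / 2 : ℝ) := Real.rpow_nonneg hK0.le _
  have h6 : (K ^ (1 / 2 : ℝ)) ^ 2 = K := by
    rw [← Real.rpow_natCast, ← Real.rpow_mul hK0.le]
    norm_num
  rw [← h6]
  exact pow_le_pow_left₀ h5 (h4.trans h3) 2

theorem one_le_rpow8 {K : ℝ} (hK : 1 ≤ K) : 1 ≤ K ^ (1 / 8 : ℝ) :=
  Real.one_le_rpow hK (by norm_num)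

/-- the complexity of `q` is at most the parameter -/
theorem Kq_le : PA.Kc g.γ (ψ g q) μ F ≤ KRa g q μ m F G := by
  unfold PA.Kc KRa
  refine max_le ((le_max_left _ _).trans (le_max_left _ _)) (le_trans ?_ (le_max_right _ _))
  have : 0 ≤ |g.γ - (F : ℝ)| / ψ g q := div_nonneg (abs_nonneg _) (ψ_pos g q).le
  linarith

/-- the complexity of `q` for the rounded radius is at most the parameter -/
theorem Kqt_le : PA.Kc g.γ (psit g q) μ F ≤ KRa g q μ m F G := by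
  unfold PA.Kc KRa
  refine max_le ((le_max_left _ _).trans (le_max_left _ _)) (le_trans ?_ (le_max_right _ _))
  have := off_psit_le g q F
  linarith

/-- the complexity of the partner is at most the parameter -/
theorem Kr_le (hX : 1 ≤ g.X) (h : RPr g q r n F G μ m a₁ b₁ a₂ b₂) :
    PA.Kc g.γ (ψ g r) m G ≤ KRa g q μ m F G := by
  have h1 := h.offG_le hX
  unfold PA.Kc KRa
  refine max_le ((le_max_right _ _).trans (le_max_left _ _)) (h1.trans ?_)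
  refine le_trans ?_ (le_max_right _ _)
  have : 0 ≤ |g.γ - (F : ℝ)| / ψ g q := div_nonneg (abs_nonneg _) (ψ_pos g q).le
  linarith

/-- the complexity of the partner for the rounded radius is at most the parameter -/
theorem Krt_le (hX : 1 ≤ g.X) (h : RPr g q r n F G μ m a₁ b₁ a₂ b₂) :
    PA.Kc g.γ (psit g r) m G ≤ KRa g q μ m F G := by
  have h1 := h.offG_le hX
  have h2 := off_psit_le g r G
  unfold PA.Kc KRa
  refine max_le ((le_max_right _ _).trans (le_max_left _ _)) ?_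
  refine le_trans ?_ (le_max_right _ _)
  linarith

/-- the parameter in terms of the complexity of `q` -/
theorem KRa_le_q (h : RPr g q r n F G μ m a₁ b₁ a₂ b₂)
    (h1 : (a₂ : ℝ) ≤ KRa g q μ m F G ^ (1 / 8 : ℝ)) :
    KRa g q μ m F G ≤ 36 * PA.Kc g.γ (ψ g q) μ F ^ 2 := by
  set K := KRa g q μ m F G with hKdef
  set κ := PA.Kc g.γ (ψ g q) μ F with hκ
  have hK2 : 2 ≤ K := two_le_KRa q μ m F G
  have hκ1 : 1 ≤ κ := PA.one_le_Kc _ _ _ _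
  have hK8 := one_le_rpow8 (K := K) (by linarith)
  have hdF : ((((μ : ℕ) : ℚ) * F).den : ℝ) ≤ κ := PA.den_le_Kc _ _ _ _
  have hoF : |g.γ - (F : ℝ)| / ψ g q ≤ κ := le_max_right _ _
  have hdG : ((((m : ℕ) : ℚ) * G).den : ℝ) ≤ K ^ (1 / 8 : ℝ) * κ := by
    have h2 := Nat.le_of_dvd (Nat.mul_pos h.posA.2.2 (Rat.den_pos _)) h.denG_dvd
    have h3 : ((((m : ℕ) : ℚ) * G).den : ℝ) ≤ (a₂ : ℝ) * ((((μ : ℕ) : ℚ) * F).den : ℝ) := by
      exact_mod_cast h2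
    refine h3.trans (mul_le_mul h1 hdF (Nat.cast_nonneg _) (by linarith))
  have h4 : K ≤ K ^ (1 / 8 : ℝ) * (6 * κ) := by
    have h5 : κ ≤ K ^ (1 / 8 : ℝ) * κ := le_mul_of_one_le_left (by linarith) hK8
    conv_lhs => rw [hKdef]
    unfold KRa
    refine max_le (max_le ?_ ?_) ?_
    · linarith
    · linarith
    · nlinarith
  have h6 := le_sq_of_le (by linarith) h4
  calc K ≤ (6 * κ) ^ 2 := h6
    _ = _ := by ring

/-- the parameter in terms of the complexity of the partner -/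
theorem KRa_le_r (hX : 1 ≤ g.X) (h : RPr g q r n F G μ m a₁ b₁ a₂ b₂)
    (h1 : (b₂ : ℝ) ≤ KRa g q μ m F G ^ (1 / 8 : ℝ)) :
    KRa g q μ m F G ≤ 100 * PA.Kc g.γ (ψ g r) m G ^ 2 := by
  set K := KRa g q μ m F G with hKdef
  set κ := PA.Kc g.γ (ψ g r) m G with hκ
  have hK2 : 2 ≤ K := two_le_KRa q μ m F G
  have hκ1 : 1 ≤ κ := PA.one_le_Kc _ _ _ _
  have hK8 := one_le_rpow8 (K := K) (by linarith)
  have hdG : ((((m : ℕ) : ℚ) * G).den : ℝ) ≤ κ := PA.den_le_Kc _ _ _ _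
  have hoG : |g.γ - (G : ℝ)| / ψ g r ≤ κ := le_max_right _ _
  have hoF := h.offF_le hX
  have hdF : ((((μ : ℕ) : ℚ) * F).den : ℝ) ≤ K ^ (1 / 8 : ℝ) * κ := by
    have h2 := Nat.le_of_dvd (Nat.mul_pos h.posB.2.2 (Rat.den_pos _)) h.denF_dvd
    have h3 : ((((μ : ℕ) : ℚ) * F).den : ℝ) ≤ (b₂ : ℝ) * ((((m : ℕ) : ℚ) * G).den : ℝ) := by
      exact_mod_cast h2
    refine h3.trans (mul_le_mul h1 hdG (Nat.cast_nonneg _) (by linarith))
  have h4 : K ≤ K ^ (1 / 8 : ℝ) * (10 * κ) := by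
    have h5 : κ ≤ K ^ (1 / 8 : ℝ) * κ := le_mul_of_one_le_left (by linarith) hK8
    conv_lhs => rw [hKdef]
    unfold KRa
    refine max_le (max_le ?_ ?_) ?_
    · linarith
    · linarith
    · nlinarith
  have h6 := le_sq_of_le (by linarith) h4
  calc K ≤ (10 * κ) ^ 2 := h6
    _ = _ := by ring

/-- the radii of two rest-rigid partners are comparable -/
theorem ratio (hX : 1 ≤ g.X) (h : RPr g q r n F G μ m a₁ b₁ a₂ b₂)
    (h' : RPr g q r' n' F G' μ m a₁ b₁ a₂' b₂')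
    (h2 : (b₂ : ℝ) ≤ KRa g q μ m F G ^ (1 / 8 : ℝ))
    (h1' : (a₂' : ℝ) ≤ KRa g q μ m F G' ^ (1 / 8 : ℝ)) :
    ψ g r ≤ (KRa g q μ m F G * KRa g q μ m F G') * ψ g r' := by
  obtain ⟨pm, pa, pa2⟩ := h.posA
  obtain ⟨pμ, pb, pb2⟩ := h.posB
  obtain ⟨-, -, pa2'⟩ := h'.posA
  obtain ⟨-, -, pb2'⟩ := h'.posB
  have ra2 : (1 : ℝ) ≤ a₂ := by exact_mod_cast pa2
  have rb2' : (1 : ℝ) ≤ b₂' := by exact_mod_cast pb2'
  have hK := two_le_KRa (g := g) q μ m F G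
  have hK' := two_le_KRa (g := g) q μ m F G'
  set K := KRa g q μ m F G with hKdef
  set K' := KRa g q μ m F G' with hKdef'
  have e1 := h.radii hX
  have e2 := h'.radii hX
  have hψq := ψ_pos g q
  have hψr := ψ_pos g r
  have hψr' := ψ_pos g r'
  have hle : ∀ x : ℝ, 2 ≤ x → x ^ (1 / 8 : ℝ) ≤ x := by
    intro x hx
    calc x ^ (1 / 8 : ℝ) ≤ x ^ (1 : ℝ) := Real.rpow_le_rpow_of_exponent_le (by linarith) (by norm_num)
      _ = x := Real.rpow_one _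
  have hc : (0 : ℝ) < (m : ℝ) * a₁ := by positivity
  have e3 : ψ g r * (a₂ * b₂') * ((m : ℝ) * a₁) = ψ g r' * (a₂' * b₂) * ((m : ℝ) * a₁) := by
    calc ψ g r * (a₂ * b₂') * ((m : ℝ) * a₁) = ((m : ℝ) * ψ g r * ((a₁ : ℝ) * a₂)) * b₂' := by ring
      _ = ((μ : ℝ) * ψ g q * ((b₁ : ℝ) * b₂)) * b₂' := by rw [e1]
      _ = ((μ : ℝ) * ψ g q * ((b₁ : ℝ) * b₂')) * b₂ := by ring
      _ = ((m : ℝ) * ψ g r' * ((a₁ : ℝ) * a₂')) * b₂ := by rw [e2]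
      _ = _ := by ring
  have e4 : ψ g r * (a₂ * b₂') = ψ g r' * (a₂' * b₂) := mul_right_cancel₀ hc.ne' e3
  have h3 : (1 : ℝ) ≤ a₂ * b₂' := by nlinarith
  have h4 : (a₂' : ℝ) * b₂ ≤ K' * K :=
    mul_le_mul (h1'.trans (hle _ hK')) (h2.trans (hle _ hK)) (Nat.cast_nonneg _) (by linarith)
  calc ψ g r ≤ ψ g r * (a₂ * b₂') := le_mul_of_one_le_right hψr.le h3
    _ = ψ g r' * (a₂' * b₂) := e4
    _ ≤ ψ g r' * (K' * K) := mul_le_mul_of_nonneg_left h4 hψr'.le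
    _ = _ := by ring

end RPr

/-- changing the radius -/
theorem Kc_scale {γ ψ₁ ψ₂ L : ℝ} (h1 : 0 < ψ₁) (h2 : 0 < ψ₂) (hL : 1 ≤ L) (h : ψ₂ ≤ L * ψ₁) (M : ℕ)
    (F : ℚ) : PA.Kc γ ψ₁ M F ≤ L * PA.Kc γ ψ₂ M F := by
  unfold PA.Kc
  have h0 : (0 : ℝ) ≤ max ((((M : ℚ) * F).den : ℕ) : ℝ) (|γ - (F : ℝ)| / ψ₂) :=
    le_trans (Nat.cast_nonneg _) (le_max_left _ _)
  refine max_le ?_ ?_
  · exact (le_max_left _ _).trans (le_mul_of_one_le_left h0 hL)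
  · have h3 := le_max_right ((((M : ℚ) * F).den : ℕ) : ℝ) (|γ - (F : ℝ)| / ψ₂)
    have h4 : |γ - (F : ℝ)| / ψ₁ ≤ L * (|γ - (F : ℝ)| / ψ₂) := by
      have h5 := abs_nonneg (γ - (F : ℝ))
      rw [div_le_iff₀ h1]
      calc |γ - (F : ℝ)| = |γ - (F : ℝ)| / ψ₂ * ψ₂ := by field_simp
        _ ≤ |γ - (F : ℝ)| / ψ₂ * (L * ψ₁) := by
            refine mul_le_mul_of_nonneg_left h (div_nonneg h5 h2.le)
        _ = _ := by ring
    exact h4.trans (mul_le_mul_of_nonneg_left h3 (by linarith))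

/-- two good fractions for comparable radii are equal -/
theorem frac_eq {γ ψ₁ ψ₂ L κ : ℝ} (p1 : 0 < ψ₁) (p2 : 0 < ψ₂) {M : ℕ} (hM : 0 < M) {G G' : ℚ}
    (h1 : PA.Kc γ ψ₁ M G ≤ κ) (h2 : PA.Kc γ ψ₂ M G' ≤ κ) (hL : 1 ≤ L) (h12 : ψ₁ ≤ L * ψ₂)
    (hs : 2 * (L * κ) ^ 3 * (M * ψ₂) < 1) : G = G' := by
  have hκ : 1 ≤ κ := (PA.one_le_Kc _ _ _ _).trans h1
  have h3 : PA.Kc γ ψ₂ M G ≤ L * κ :=
    (Kc_scale p2 p1 hL h12 M G).trans (mul_le_mul_of_nonneg_left h1 (by linarith))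
  have h4 : PA.Kc γ ψ₂ M G' ≤ L * κ := h2.trans (le_mul_of_one_le_left (by linarith) hL)
  exact PA.Kc_unique p2 hM h3 h4 hs

namespace RPr

variable {q r r' : ℕ} {n n' : ℤ} {F G G' : ℚ} {μ m a₁ b₁ a₂ b₂ a₂' b₂' : ℕ}

/-- **Uniqueness of the fraction of the partner**: `G'` is a candidate with the deficit `mj ∣ m`
(complexity at most `T`), `G` has not dropped much since then. -/
theorem frac_uniq (hX : 1 ≤ g.X) (h : RPr g q r n F G μ m a₁ b₁ a₂ b₂)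
    (h' : RPr g q r' n' F G' μ m a₁ b₁ a₂' b₂')
    (h1 : (a₂ : ℝ) ≤ KRa g q μ m F G ^ (1 / 8 : ℝ)) (h2 : (b₂ : ℝ) ≤ KRa g q μ m F G ^ (1 / 8 : ℝ))
    (h1' : (a₂' : ℝ) ≤ KRa g q μ m F G' ^ (1 / 8 : ℝ))
    (h2' : (b₂' : ℝ) ≤ KRa g q μ m F G' ^ (1 / 8 : ℝ)) {mj : ℕ} (hmj : 0 < mj) (hmd : mj ∣ m)
    {T : ℝ} (hT : 1 ≤ T) (hG : PA.Kc g.γ (ψ g r) mj G ≤ max T (16 * PA.Kc g.γ (ψ g r) m G ^ 4))
    (hG' : PA.Kc g.γ (ψ g r') mj G' ≤ T) (hs : 10 ^ 100 * T ^ 66 * (mj * ψ g r') < 1) : G = G' := by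
  set K := KRa g q μ m F G with hKdef
  set K' := KRa g q μ m F G' with hKdef'
  have hK2 : 2 ≤ K := two_le_KRa q μ m F G
  have hK2' : 2 ≤ K' := two_le_KRa q μ m F G'
  have hψr := ψ_pos g r
  have hψr' := ψ_pos g r'
  have b1 : K' ≤ 100 * T ^ 2 := by
    have h3 := h'.KRa_le_r hX h2'
    have h4 : PA.Kc g.γ (ψ g r') m G' ≤ T := (PA.Kc_mono _ _ hmd G').trans hG'
    have h5 := pow_le_pow_left₀ (PA.Kc_pos _ _ _ _).le h4 2
    linarith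
  have b2 : K ≤ 360000 * T ^ 4 := by
    have h3 := h.KRa_le_q h1
    have h4 : PA.Kc g.γ (ψ g q) μ F ≤ 100 * T ^ 2 := (Kq_le (m := m) (G := G')).trans b1
    have h5 := pow_le_pow_left₀ (PA.Kc_pos _ _ _ _).le h4 2
    calc K ≤ 36 * PA.Kc g.γ (ψ g q) μ F ^ 2 := h3
      _ ≤ 36 * (100 * T ^ 2) ^ 2 := by linarith
      _ = _ := by ring
  have b3 : PA.Kc g.γ (ψ g r) m G ≤ 360000 * T ^ 4 := (h.Kr_le hX).trans b2
  have hT0 : (0 : ℝ) ≤ T := by linarith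
  have hTp : ∀ k : ℕ, 1 ≤ T ^ k := fun k => one_le_pow₀ hT
  set κ : ℝ := 3 * 10 ^ 23 * T ^ 16 with hκ
  have b4 : PA.Kc g.γ (ψ g r) mj G ≤ κ := by
    refine hG.trans (max_le ?_ ?_)
    · have h3 : T ≤ T ^ 16 := le_self_pow₀ hT (by norm_num)
      rw [hκ]
      nlinarith [hTp 16]
    · have h5 := pow_le_pow_left₀ (PA.Kc_pos _ _ _ _).le b3 4
      calc 16 * PA.Kc g.γ (ψ g r) m G ^ 4 ≤ 16 * (360000 * T ^ 4) ^ 4 := by linarith
        _ = 16 * 360000 ^ 4 * T ^ 16 := by ring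
        _ ≤ κ := by
          rw [hκ]
          refine mul_le_mul_of_nonneg_right (by norm_num) (by positivity)
  have b5 : PA.Kc g.γ (ψ g r') mj G' ≤ κ := by
    refine hG'.trans ?_
    have h3 : T ≤ T ^ 16 := le_self_pow₀ hT (by norm_num)
    rw [hκ]
    nlinarith [hTp 16]
  set L : ℝ := 36000000 * T ^ 6 with hL
  have b6 : K * K' ≤ L := by
    calc K * K' ≤ (360000 * T ^ 4) * (100 * T ^ 2) :=
          mul_le_mul b2 b1 (by linarith) (by positivity)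
      _ = L := by rw [hL]; ring
  have b7 : ψ g r ≤ L * ψ g r' :=
    (h.ratio hX h' h2 h1').trans (mul_le_mul_of_nonneg_right b6 hψr'.le)
  refine frac_eq hψr hψr' hmj b4 b5 ?_ b7 ?_
  · rw [hL]
    nlinarith [hTp 6]
  · have e : 2 * (L * κ) ^ 3 * (mj * ψ g r') =
        (2 * (36000000 * (3 * 10 ^ 23)) ^ 3) * (T ^ 66 * (mj * ψ g r')) := by
      rw [hL, hκ]
      ring
    rw [e]
    have h0 : 0 ≤ T ^ 66 * (mj * ψ g r') := by positivity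
    calc (2 * (36000000 * (3 * 10 ^ 23)) ^ 3) * (T ^ 66 * (mj * ψ g r'))
        ≤ 10 ^ 100 * (T ^ 66 * (mj * ψ g r')) := mul_le_mul_of_nonneg_right (by norm_num) h0
      _ = 10 ^ 100 * T ^ 66 * (mj * ψ g r') := by ring
      _ < 1 := hs

/-- **Uniqueness of the fraction of the partner when `q` is new** and the partner omits nothing. -/
theorem frac_uniq_new (hX : 1 ≤ g.X) (h : RPr g q r n F G μ m a₁ 1 a₂ b₂)
    (h' : RPr g q r' n' F G' μ m a₁ 1 a₂' b₂')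
    (h1 : (a₂ : ℝ) ≤ KRa g q μ m F G ^ (1 / 8 : ℝ)) (h2 : (b₂ : ℝ) ≤ KRa g q μ m F G ^ (1 / 8 : ℝ))
    (h1' : (a₂' : ℝ) ≤ KRa g q μ m F G' ^ (1 / 8 : ℝ))
    (h2' : (b₂' : ℝ) ≤ KRa g q μ m F G' ^ (1 / 8 : ℝ))
    {T : ℝ} (hT : 1 ≤ T) (hF : PA.Kc g.γ (ψ g q) μ F ≤ T)
    (hs : 10 ^ 100 * T ^ 66 * (μ * ψ g q) < 1) : G = G' := by
  obtain ⟨pm, pa, pa2⟩ := h.posA
  obtain ⟨pμ, -, pb2⟩ := h.posB
  obtain ⟨-, -, pa2'⟩ := h'.posA
  obtain ⟨-, -, pb2'⟩ := h'.posB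
  set K := KRa g q μ m F G with hKdef
  set K' := KRa g q μ m F G' with hKdef'
  have hK2 : 2 ≤ K := two_le_KRa q μ m F G
  have hK2' : 2 ≤ K' := two_le_KRa q μ m F G'
  have hψr := ψ_pos g r
  have hψr' := ψ_pos g r'
  have hψq := ψ_pos g q
  have h5 := pow_le_pow_left₀ (PA.Kc_pos _ _ _ _).le hF 2
  have b1 : K' ≤ 36 * T ^ 2 := by
    have h3 := h'.KRa_le_q h1'
    linarith
  have b2 : K ≤ 36 * T ^ 2 := by
    have h3 := h.KRa_le_q h1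
    linarith
  have hT0 : (0 : ℝ) ≤ T := by linarith
  have hTp : ∀ k : ℕ, 1 ≤ T ^ k := fun k => one_le_pow₀ hT
  set κ : ℝ := 36 * T ^ 2 with hκ
  have b4 : PA.Kc g.γ (ψ g r) m G ≤ κ := (h.Kr_le hX).trans b2
  have b5 : PA.Kc g.γ (ψ g r') m G' ≤ κ := (h'.Kr_le hX).trans b1
  set L : ℝ := 1296 * T ^ 4 with hL
  have b6 : K * K' ≤ L := by
    calc K * K' ≤ (36 * T ^ 2) * (36 * T ^ 2) := mul_le_mul b2 b1 (by linarith) (by positivity)
      _ = L := by rw [hL]; ring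
  have b7 : ψ g r ≤ L * ψ g r' :=
    (h.ratio hX h' h2 h1').trans (mul_le_mul_of_nonneg_right b6 hψr'.le)
  have hle : ∀ x : ℝ, 2 ≤ x → x ^ (1 / 8 : ℝ) ≤ x := by
    intro x hx
    calc x ^ (1 / 8 : ℝ) ≤ x ^ (1 : ℝ) := Real.rpow_le_rpow_of_exponent_le (by linarith) (by norm_num)
      _ = x := Real.rpow_one _
  -- the radius of `r'`
  have b8 : (m : ℝ) * ψ g r' ≤ 36 * T ^ 2 * (μ * ψ g q) := by
    have e := h'.radii hX
    have ra : (1 : ℝ) ≤ (a₁ : ℝ) * a₂' := by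
      have : 1 ≤ a₁ * a₂' := Nat.mul_pos pa pa2'
      exact_mod_cast this
    have h3 : (m : ℝ) * ψ g r' ≤ (m : ℝ) * ψ g r' * ((a₁ : ℝ) * a₂') :=
      le_mul_of_one_le_right (by positivity) ra
    have h4 : (b₂' : ℝ) ≤ 36 * T ^ 2 := (h2'.trans (hle _ hK2')).trans b1
    calc (m : ℝ) * ψ g r' ≤ (m : ℝ) * ψ g r' * ((a₁ : ℝ) * a₂') := h3
      _ = (μ : ℝ) * ψ g q * (((1 : ℕ) : ℝ) * b₂') := e
      _ = (b₂' : ℝ) * ((μ : ℝ) * ψ g q) := by push_cast; ring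
      _ ≤ 36 * T ^ 2 * (μ * ψ g q) := mul_le_mul_of_nonneg_right h4 (by positivity)
  refine frac_eq hψr hψr' pm b4 b5 ?_ b7 ?_
  · rw [hL]
    nlinarith [hTp 4]
  · have h0 : 0 ≤ (μ : ℝ) * ψ g q := by positivity
    calc 2 * (L * κ) ^ 3 * (m * ψ g r') ≤ 2 * (L * κ) ^ 3 * (36 * T ^ 2 * (μ * ψ g q)) :=
          mul_le_mul_of_nonneg_left b8 (by positivity)
      _ = (2 * 46656 ^ 3 * 36) * (T ^ 20 * (μ * ψ g q)) := by
          rw [hL, hκ]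
          ring
      _ ≤ 10 ^ 100 * (T ^ 66 * (μ * ψ g q)) := by
          refine mul_le_mul (by norm_num) ?_ (by positivity) (by norm_num)
          exact mul_le_mul_of_nonneg_right (pow_le_pow_right₀ hT (by norm_num)) h0
      _ = 10 ^ 100 * T ^ 66 * (μ * ψ g q) := by ring
      _ < 1 := hs

end RPr

/-! ### The automaton -/

/-- the fraction `G` of `r` has not dropped much in its present phase -/
def ND (g : Cfg) (i r : ℕ) (G : ℚ) : Prop :=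
  ∀ d, 1 ≤ d → d ≤ i → (∀ l, d ≤ l → l ≤ i → ∃ b, st g l r = some (G, b)) →
    CF.KK g d r G ≤ max (g.K.P.ρ0 ^ (-g.K.P.c0)) (CF.KK g i r G ^ 4)

theorem ND.of_new {i r : ℕ} {G : ℚ} (h : ∀ b, st g (i - 1) r ≠ some (G, b)) : ND g i r G := by
  intro d hd1 hdi hl
  have h1 : 1 ≤ CF.KK g i r G := PA.one_le_KK (dat g) i r G
  rcases Nat.eq_or_lt_of_le hdi with h2 | h2
  · rw [h2]
    refine le_trans ?_ (le_max_right _ _)
    exact le_self_pow₀ h1 (by norm_num)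
  · obtain ⟨b, hb⟩ := hl (i - 1) (by omega) (by omega)
    exact absurd hb (h b)

theorem M_dvd_le' {i j : ℕ} (h : i ≤ j) (r : ℕ) : M g i r ∣ M g j r := by
  induction j, h using Nat.le_induction with
  | base => exact dvd_rfl
  | succ j _ ih => exact ih.trans (M_dvd g j r)

/-- the deficit at an earlier stage in terms of that at a later one -/
theorem M_eq_part {i j r : ℕ} (hji : j ≤ i) :
    M g j r = ∏ p ∈ PO (z g j) (N g), p ^ (M g i r).factorization p := by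
  have e0 : M g j r = ∏ p ∈ PO (z g j) (N g), p ^ (kc g r p - r.factorization p) := rfl
  rw [e0]
  refine prod_congr rfl fun p hp => ?_
  have hp' : p ∈ PO (z g i) (N g) := PO_mono (z_anti g hji) hp
  have e1 : (M g i r).factorization p = kc g r p - r.factorization p := by
    have : (M g i r).factorization p = if p ∈ PO (z g i) (N g) then
      kc g r p - r.factorization p else 0 := od_fac _ _ _ _ _
    rw [this, if_pos hp']
  rw [e1]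

theorem M_eq_of {i i' j r r' : ℕ} (hji : j ≤ i) (hji' : j ≤ i') (h : M g i r = M g i' r') :
    M g j r = M g j r' := by
  rw [M_eq_part hji, M_eq_part hji', h]

/-- if the deficit of `r'` at `i'` is composed of primes `> z_i`, it is constant in between -/
theorem M_const {i i' j r r' : ℕ} (hij : i ≤ j) (hji' : j ≤ i') (h : M g i r = M g i' r') :
    M g j r' = M g i' r' := by
  apply Nat.dvd_antisymm (M_dvd_le' hji' r')
  rw [← h, M_eq_of le_rfl (hij.trans hji') h]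
  exact M_dvd_le' hij r'

/-- the smallness of `ρ0` used for the uniqueness -/
def RhoU (g : Cfg) : Prop := 2 * 10 ^ 100 * g.K.P.ρ0 ^ (1 - 70 * g.K.P.c0) < 1

/-- `RhoU` holds for all good constants -/
theorem ev_RhoU : Ev (fun K _ => 2 * 10 ^ 100 * K.P.ρ0 ^ (1 - 70 * K.P.c0) < 1) := by
  refine ⟨1 / 140, by norm_num, fun c0 hc0 hc0' => ⟨1, one_pos, fun c4 _ _ =>
    ⟨((1 / 10 ^ 101 : ℝ)) ^ (2 : ℝ), by positivity, fun ρ0 hρ hρ' => ⟨0, fun C1 _ => ⟨0, fun C2 _ =>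
      ⟨0, fun Js _ h => ?_⟩⟩⟩⟩⟩⟩
  change 2 * 10 ^ 100 * ρ0 ^ (1 - 70 * c0) < 1
  have h1 : ρ0 ≤ 1 := h.ρ0_lt.le
  have h2 : ρ0 ^ (1 - 70 * c0) ≤ ρ0 ^ (1 / 2 : ℝ) :=
    Real.rpow_le_rpow_of_exponent_ge hρ h1 (by linarith)
  have h3 : ρ0 ^ (1 / 2 : ℝ) ≤ 1 / 10 ^ 101 := by
    calc ρ0 ^ (1 / 2 : ℝ) ≤ (((1 / 10 ^ 101 : ℝ)) ^ (2 : ℝ)) ^ (1 / 2 : ℝ) :=
          Real.rpow_le_rpow hρ.le hρ' (by norm_num)
      _ = 1 / 10 ^ 101 := by
          rw [← Real.rpow_mul (by positivity)]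
          norm_num
  have h4 : 2 * (10 : ℝ) ^ 100 * ρ0 ^ (1 - 70 * c0) ≤ 2 * 10 ^ 100 * (1 / 10 ^ 101) :=
    mul_le_mul_of_nonneg_left (h2.trans h3) (by positivity)
  refine lt_of_le_of_lt h4 ?_
  norm_num

/-- the data of a candidate -/
theorem cand_data (hρ : RhoU g) {j r : ℕ} {G : ℚ} (h : PA.IsCand g.K.P (dat g) j r G) :
    ∃ T : ℝ, 1 ≤ T ∧ g.K.P.ρ0 ^ (-g.K.P.c0) ≤ T ∧ PA.Kc g.γ (ψ g r) (M g j r) G ≤ T ∧
      10 ^ 100 * T ^ 66 * (M g j r * ψ g r) < 1 := by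
  have hc0 := g.K.P.c0_pos
  have hρ0 := g.K.P.ρ0_pos
  have hρ1 := g.K.P.ρ0_lt
  have hr := PA.rho_pos (dat g) j r
  have e : (M g j r : ℝ) * ψ g r ≤ 2 * PA.rho (dat g) j r := le_two_rho g j r
  have eK : PA.Kc g.γ (ψ g r) (M g j r) G ≤ PA.KK (dat g) j r G :=
    max_le_max le_rfl (off_le_off_psit g r G)
  set x := PA.rho (dat g) j r with hx
  have hx0 : x ≤ g.K.P.ρ0 := h.1
  have h60 : 70 * g.K.P.c0 < 1 := by
    by_contra hcon
    push Not at hcon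
    have h1 : (1 : ℝ) ≤ g.K.P.ρ0 ^ (1 - 70 * g.K.P.c0) :=
      Real.one_le_rpow_of_pos_of_le_one_of_nonpos hρ0 hρ1.le (by linarith)
    have h2 : (1 : ℝ) ≤ 2 * 10 ^ 100 * g.K.P.ρ0 ^ (1 - 70 * g.K.P.c0) := by nlinarith
    exact absurd hρ (not_lt.2 h2)
  refine ⟨x ^ (-g.K.P.c0), ?_, ?_, ?_, ?_⟩
  · exact Real.one_le_rpow_of_pos_of_le_one_of_nonpos hr (by linarith) (by linarith)
  · exact Real.rpow_le_rpow_of_nonpos hr hx0 (by linarith)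
  · exact eK.trans h.2
  · have hT0 : 0 ≤ 10 ^ 100 * (x ^ (-g.K.P.c0)) ^ 66 := by positivity
    refine lt_of_le_of_lt (mul_le_mul_of_nonneg_left e hT0) ?_
    have h1 : (x ^ (-g.K.P.c0)) ^ 66 * x = x ^ (1 - 66 * g.K.P.c0) := by
      rw [← Real.rpow_natCast, ← Real.rpow_mul hr.le]
      nth_rewrite 2 [← Real.rpow_one x]
      rw [← Real.rpow_add hr]
      congr 1
      push_cast
      ring
    have h1' : 10 ^ 100 * (x ^ (-g.K.P.c0)) ^ 66 * (2 * x) =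
        2 * 10 ^ 100 * x ^ (1 - 66 * g.K.P.c0) := by
      rw [← h1]
      ring
    rw [h1']
    have h2 : x ^ (1 - 66 * g.K.P.c0) ≤ g.K.P.ρ0 ^ (1 - 66 * g.K.P.c0) :=
      Real.rpow_le_rpow hr.le hx0 (by linarith)
    have h3 : g.K.P.ρ0 ^ (1 - 66 * g.K.P.c0) ≤ g.K.P.ρ0 ^ (1 - 70 * g.K.P.c0) :=
      Real.rpow_le_rpow_of_exponent_ge hρ0 hρ1.le (by linarith)
    refine lt_of_le_of_lt ?_ hρ
    exact mul_le_mul_of_nonneg_left (h2.trans h3) (by positivity)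

/-- uniqueness of the fraction, `r'` has adopted its fraction later than `r` -/
theorem frac_uniq_aut (hρ : RhoU g) (hX : 1 ≤ g.X) {i i' j j' q r r' : ℕ} {n n' : ℤ} {F G G' : ℚ}
    {μ m a₁ b₁ a₂ b₂ a₂' b₂' : ℕ} (h : RPr g q r n F G μ m a₁ b₁ a₂ b₂)
    (h' : RPr g q r' n' F G' μ m a₁ b₁ a₂' b₂')
    (h1 : (a₂ : ℝ) ≤ KRa g q μ m F G ^ (1 / 8 : ℝ)) (h2 : (b₂ : ℝ) ≤ KRa g q μ m F G ^ (1 / 8 : ℝ))
    (h1' : (a₂' : ℝ) ≤ KRa g q μ m F G' ^ (1 / 8 : ℝ))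
    (h2' : (b₂' : ℝ) ≤ KRa g q μ m F G' ^ (1 / 8 : ℝ))
    (hm : M g i r = m) (hm' : M g i' r' = m) (hnd : ND g i r G) (hji' : j' ≤ i')
    (hjj : j ≤ j') (hj1 : 1 ≤ j) (hst : ∀ l, j ≤ l → l ≤ i → ∃ b, st g l r = some (G, b))
    (hc' : PA.IsCand g.K.P (dat g) j' r' G') : G = G' := by
  obtain ⟨T, hT1, hTρ, hTK, hTs⟩ := cand_data hρ hc'
  refine h.frac_uniq hX h' h1 h2 h1' h2' (M_pos g j' r') ?_ hT1 ?_ hTK hTs
  · rw [← hm']
    exact M_dvd_le' hji' r'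
  · rcases le_or_gt j' i with h3 | h3
    · have e : M g j' r = M g j' r' := M_eq_of h3 hji' (hm.trans hm'.symm)
      have h4 := hnd j' (hj1.trans hjj) h3 fun l hl hl' => hst l (hjj.trans hl) hl'
      have e1 : PA.Kc g.γ (ψ g r) (M g j' r') G ≤ CF.KK g j' r G := by
        rw [← e]
        exact max_le_max le_rfl (off_le_off_psit g r G)
      have e2 : CF.KK g i r G ≤ 2 * PA.Kc g.γ (ψ g r) m G := by
        have h6 : CF.KK g i r G = PA.Kc g.γ (psit g r) (M g i r) G := rfl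
        rw [h6, hm]
        exact Kc_scale (psit_pos g r) (ψ_pos g r) one_le_two (le_two_psit g r) m G
      have e3 : CF.KK g i r G ^ 4 ≤ 16 * PA.Kc g.γ (ψ g r) m G ^ 4 := by
        calc CF.KK g i r G ^ 4 ≤ (2 * PA.Kc g.γ (ψ g r) m G) ^ 4 :=
              pow_le_pow_left₀ (zero_le_one.trans (PA.one_le_KK (dat g) i r G)) e2 4
          _ = _ := by ring
      exact e1.trans (h4.trans (max_le_max hTρ e3))
    · have e : M g j' r' = m := by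
        rw [M_const h3.le hji' (hm.trans hm'.symm), hm']
      rw [e]
      refine le_trans ?_ (le_max_right _ _)
      have h4 := PA.one_le_Kc g.γ (ψ g r) m G
      have h5 : PA.Kc g.γ (ψ g r) m G ≤ PA.Kc g.γ (ψ g r) m G ^ 4 := le_self_pow₀ h4 (by norm_num)
      linarith

/-- uniqueness of the fraction of the partner: both are new or not dropped -/
theorem frac_uniq_nd (hρ : RhoU g) (hX : 1 ≤ g.X) {i i' q r r' : ℕ} {n n' : ℤ} {F G G' : ℚ}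
    {μ m a₁ b₁ a₂ b₂ a₂' b₂' : ℕ} (h : RPr g q r n F G μ m a₁ b₁ a₂ b₂)
    (h' : RPr g q r' n' F G' μ m a₁ b₁ a₂' b₂')
    (h1 : (a₂ : ℝ) ≤ KRa g q μ m F G ^ (1 / 8 : ℝ)) (h2 : (b₂ : ℝ) ≤ KRa g q μ m F G ^ (1 / 8 : ℝ))
    (h1' : (a₂' : ℝ) ≤ KRa g q μ m F G' ^ (1 / 8 : ℝ))
    (h2' : (b₂' : ℝ) ≤ KRa g q μ m F G' ^ (1 / 8 : ℝ))
    (hm : M g i r = m) (hm' : M g i' r' = m) {b b' : Bool} (hs : st g i r = some (G, b))
    (hs' : st g i' r' = some (G', b')) (hnd : ND g i r G) (hnd' : ND g i' r' G') : G = G' := by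
  obtain ⟨j, hj1, hji, hc, hst, -⟩ := PA.exists_adopt g.K.P (dat g) hs
  obtain ⟨j', hj1', hji', hc', hst', -⟩ := PA.exists_adopt g.K.P (dat g) hs'
  rcases le_total j j' with h3 | h3
  · exact frac_uniq_aut hρ hX h h' h1 h2 h1' h2' hm hm' hnd hji' h3 hj1 hst hc'
  · exact (frac_uniq_aut hρ hX h' h h1' h2' h1 h2 hm' hm hnd' hji h3 hj1' hst' hc).symm

/-- the size condition in terms of the symmetric complexity -/
theorem KS_le_KRa (hX : 1 ≤ g.X) {i q r : ℕ} {n : ℤ} {F G : ℚ} {a₁ b₁ a₂ b₂ : ℕ}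
    (h : RPr g q r n F G (M g i q) (M g i r) a₁ b₁ a₂ b₂) :
    KS g i q r F G ≤ KRa g q (M g i q) (M g i r) F G :=
  max_le RPr.Kqt_le (h.Krt_le hX)

/-- the data of an aligned clean pair at stage `i` -/
theorem RPr.of_al (hV : g.V ⊆ Icc 1 (N g)) {i q r : ℕ} (hz : zs g ≤ z g i) {n : ℤ} {F G : ℚ}
    (hq : q ∈ g.V) (hr : r ∈ g.V) (hc : Clean g (z g i) q r) (hn : n ∈ Sh g q r)
    (hal : (n : ℚ) + F * ((cofac r q : ℤ) : ℚ) - G * ((cofac q r : ℤ) : ℚ) = 0)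
    {a₁ b₁ a₂ b₂ : ℕ} (ea : rcof (z g i) (N g) (kc g q) q r = a₁ * a₂)
    (eb : rcof (z g i) (N g) (kc g q) r q = b₁ * b₂)
    (c1 : Nat.Coprime a₁ (((M g i r : ℚ) * G).den)) (c2 : Nat.Coprime b₁ (((M g i q : ℚ) * F).den)) :
    RPr g q r n F G (M g i q) (M g i r) a₁ b₁ a₂ b₂ := by
  obtain ⟨e1, e2, -, -, -⟩ := clean_cofac hV hz hq hr hc
  refine ⟨(mem_Icc.1 (hV hq)).1, (mem_Icc.1 (hV hr)).1, hn, hal, ?_, ?_, c1, c2⟩
  · rw [e1, ea]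
  · rw [e2, eb]

/-- **Uniqueness of the rest-rigid partner** of `q` for fixed fraction of `q`, fixed deficits and
fixed omitted parts, over all the stages at which these data are the same. -/
theorem rest_unique (hρ : RhoU g) (hJ : JsOK g.K g.Js) (hJX : g.Js ≤ g.X)
    (hV : g.V ⊆ Icc 1 (N g)) {i i' q r r' : ℕ} {n n' : ℤ} {F G G' : ℚ} {b b' : Bool}
    (hq : q ∈ g.V) (hr : r ∈ g.V) (hr' : r' ∈ g.V)
    (hn : n ∈ Sh g q r) (hn' : n' ∈ Sh g q r')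
    (hc : Clean g (z g i) q r) (hc' : Clean g (z g i') q r')
    (hs : st g i r = some (G, b)) (hs' : st g i' r' = some (G', b'))
    (hal : (n : ℚ) + F * ((cofac r q : ℤ) : ℚ) - G * ((cofac q r : ℤ) : ℚ) = 0)
    (hal' : (n' : ℚ) + F * ((cofac r' q : ℤ) : ℚ) - G' * ((cofac q r' : ℤ) : ℚ) = 0)
    (hMq : M g i q = M g i' q) (hMr : M g i r = M g i' r') {a₁ b₁ a₂ b₂ a₂' b₂' : ℕ}
    (ea : rcof (z g i) (N g) (kc g q) q r = a₁ * a₂)
    (eb : rcof (z g i) (N g) (kc g q) r q = b₁ * b₂)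
    (ea' : rcof (z g i') (N g) (kc g q) q r' = a₁ * a₂')
    (eb' : rcof (z g i') (N g) (kc g q) r' q = b₁ * b₂')
    (c1 : Nat.Coprime a₁ (((M g i r : ℚ) * G).den))
    (c2 : Nat.Coprime b₁ (((M g i q : ℚ) * F).den))
    (c1' : Nat.Coprime a₁ (((M g i' r' : ℚ) * G').den))
    (h1 : (a₂ : ℝ) ≤ KS g i q r F G ^ (1 / 8 : ℝ)) (h2 : (b₂ : ℝ) ≤ KS g i q r F G ^ (1 / 8 : ℝ))
    (h1' : (a₂' : ℝ) ≤ KS g i' q r' F G' ^ (1 / 8 : ℝ))
    (h2' : (b₂' : ℝ) ≤ KS g i' q r' F G' ^ (1 / 8 : ℝ))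
    (hnd : ND g i r G) (hnd' : ND g i' r' G') : r = r' ∧ G = G' := by
  have hX : 1 ≤ g.X := by linarith [hJ.1]
  have hz : zs g ≤ z g i := zs_le_z hJ hJX i
  have hz' : zs g ≤ z g i' := zs_le_z hJ hJX i'
  have H := RPr.of_al hV hz hq hr hc hn hal ea eb c1 c2
  have c2' : Nat.Coprime b₁ (((M g i' q : ℚ) * F).den) := by rw [← hMq]; exact c2
  have H' := RPr.of_al hV hz' hq hr' hc' hn' hal' ea' eb' c1' c2'
  have k1 := KS_le_KRa hX H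
  have k2 := KS_le_KRa hX H'
  have p1 : 0 ≤ KS g i q r F G :=
    le_trans zero_le_one ((PA.one_le_KK (dat g) i q F).trans (le_max_left _ _))
  have p2 : 0 ≤ KS g i' q r' F G' :=
    le_trans zero_le_one ((PA.one_le_KK (dat g) i' q F).trans (le_max_left _ _))
  rw [← hMq, ← hMr] at H' k2
  have s1 := Real.rpow_le_rpow p1 k1 (by norm_num : (0 : ℝ) ≤ 1 / 8)
  have s2 := Real.rpow_le_rpow p2 k2 (by norm_num : (0 : ℝ) ≤ 1 / 8)
  have hGG : G = G' := frac_uniq_nd hρ hX H H' (h1.trans s1) (h2.trans s1) (h1'.trans s2)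
    (h2'.trans s2) rfl hMr.symm hs hs' hnd hnd'
  subst hGG
  exact ⟨H.core hX H' (h1.trans s1) (h2.trans s1) (h1'.trans s2) (h2'.trans s2), rfl⟩

/-- **Uniqueness of the rest-rigid partner** when `q` is new at the stage `i` and the partner omits
nothing. -/
theorem rest_unique_new (hρ : RhoU g) (hJ : JsOK g.K g.Js) (hJX : g.Js ≤ g.X)
    (hV : g.V ⊆ Icc 1 (N g)) {i i' q r r' : ℕ} {n n' : ℤ} {F G G' : ℚ}
    (hq : q ∈ g.V) (hr : r ∈ g.V) (hr' : r' ∈ g.V)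
    (hn : n ∈ Sh g q r) (hn' : n' ∈ Sh g q r')
    (hc : Clean g (z g i) q r) (hc' : Clean g (z g i') q r')
    (hal : (n : ℚ) + F * ((cofac r q : ℤ) : ℚ) - G * ((cofac q r : ℤ) : ℚ) = 0)
    (hal' : (n' : ℚ) + F * ((cofac r' q : ℤ) : ℚ) - G' * ((cofac q r' : ℤ) : ℚ) = 0)
    (hMq : M g i q = M g i' q) (hMr : M g i r = M g i' r') {a₁ a₂ b₂ a₂' b₂' : ℕ}
    (ea : rcof (z g i) (N g) (kc g q) q r = a₁ * a₂)
    (eb : rcof (z g i) (N g) (kc g q) r q = b₂)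
    (ea' : rcof (z g i') (N g) (kc g q) q r' = a₁ * a₂')
    (eb' : rcof (z g i') (N g) (kc g q) r' q = b₂')
    (c1 : Nat.Coprime a₁ (((M g i r : ℚ) * G).den))
    (c1' : Nat.Coprime a₁ (((M g i' r' : ℚ) * G').den))
    (h1 : (a₂ : ℝ) ≤ KS g i q r F G ^ (1 / 8 : ℝ)) (h2 : (b₂ : ℝ) ≤ KS g i q r F G ^ (1 / 8 : ℝ))
    (h1' : (a₂' : ℝ) ≤ KS g i' q r' F G' ^ (1 / 8 : ℝ))
    (h2' : (b₂' : ℝ) ≤ KS g i' q r' F G' ^ (1 / 8 : ℝ))
    (hcand : PA.IsCand g.K.P (dat g) i q F) : r = r' ∧ G = G' := by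
  have hX : 1 ≤ g.X := by linarith [hJ.1]
  have hz : zs g ≤ z g i := zs_le_z hJ hJX i
  have hz' : zs g ≤ z g i' := zs_le_z hJ hJX i'
  have H := RPr.of_al (b₁ := 1) (b₂ := b₂) hV hz hq hr hc hn hal ea (by rw [one_mul]; exact eb) c1
    (Nat.coprime_one_left _)
  have H' := RPr.of_al (b₁ := 1) (b₂ := b₂') hV hz' hq hr' hc' hn' hal' ea'
    (by rw [one_mul]; exact eb') c1' (Nat.coprime_one_left _)
  have k1 := KS_le_KRa hX H
  have k2 := KS_le_KRa hX H'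
  have p1 : 0 ≤ KS g i q r F G :=
    le_trans zero_le_one ((PA.one_le_KK (dat g) i q F).trans (le_max_left _ _))
  have p2 : 0 ≤ KS g i' q r' F G' :=
    le_trans zero_le_one ((PA.one_le_KK (dat g) i' q F).trans (le_max_left _ _))
  rw [← hMq, ← hMr] at H' k2
  have s1 := Real.rpow_le_rpow p1 k1 (by norm_num : (0 : ℝ) ≤ 1 / 8)
  have s2 := Real.rpow_le_rpow p2 k2 (by norm_num : (0 : ℝ) ≤ 1 / 8)
  obtain ⟨T, hT1, -, hTK, hTs⟩ := cand_data hρ hcand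
  have hGG : G = G' := H.frac_uniq_new hX H' (h1.trans s1) (h2.trans s1) (h1'.trans s2)
    (h2'.trans s2) hT1 hTK hTs
  subst hGG
  exact ⟨H.core hX H' (h1.trans s1) (h2.trans s1) (h1'.trans s2) (h2'.trans s2), rfl⟩

/-- two starts of an alignment of one pair with the same fractions are at the same stage -/
theorem TAj_stage_unique {i i' q r : ℕ} {n : ℤ} (hi : 1 ≤ i) (hi' : 1 ≤ i')
    (h : TAj g i q r n) (h' : TAj g i' q r n) : i = i' := by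
  rcases lt_trichotomy i i' with h1 | h1 | h1
  · exact absurd h.1 (h'.2.1 i hi (by omega))
  · exact h1
  · exact absurd h'.1 (h.2.1 i' hi' (by omega))

/-- the integer of an aligned triple is determined by the fractions -/
theorem al_int_unique {q r : ℕ} {n n' : ℤ} {F G : ℚ}
    (hal : (n : ℚ) + F * ((cofac r q : ℤ) : ℚ) - G * ((cofac q r : ℤ) : ℚ) = 0)
    (hal' : (n' : ℚ) + F * ((cofac r q : ℤ) : ℚ) - G * ((cofac q r : ℤ) : ℚ) = 0) : n = n' := by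
  have h : (n : ℚ) = n' := by linarith
  exact_mod_cast h

end Vale.P028.SK
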